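import Vale.Agent.P073.PA691.TMSpec

/-!
# P073, block TM-B: gaps between compact sets and locally finite families
-/

open Set Metric Topology Filter

namespace P073.PA691

open P073 PR720
open Vale.Agent.P073.St (V IsInv)

section General

variable {E : Type*} [NormedAddCommGroup E] {κ : Type*}

/-- a compact set meets finitely many members of a locally finite family -/
theorem finite_meet' {A : κ → Set E} {W K : Set E} (hA : PR720.LF A W) (hK : IsCompact K)
    (hKW : K ⊆ W) : {i | (A i ∩ K).Nonempty}.Finite := by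
  refine hK.induction_on (p := fun K => {i | (A i ∩ K).Nonempty}.Finite) ?_ ?_ ?_ ?_
  · simp
  · intro s t hst ht
    exact ht.subset fun i hi => hi.mono (inter_subset_inter_right _ hst)
  · intro s t hs ht
    refine (hs.union ht).subset ?_
    rintro i ⟨x, hx, hx' | hx'⟩
    · exact Or.inl ⟨x, hx, hx'⟩
    · exact Or.inr ⟨x, hx, hx'⟩
  · intro x hx
    obtain ⟨U, hU, hfin⟩ := hA x (hKW hx)
    exact ⟨U, mem_nhdsWithin_of_mem_nhds hU, hfin⟩

variable [ProperSpace E] [NormedSpace ℝ E]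

/-- a compact set has a positive distance from all members of a locally finite family which are
disjoint from it -/
theorem exists_gap {Λ : Set E} (hΛ : IsOpen Λ) {A : Set E} (hA : IsCompact A) (hAΛ : A ⊆ Λ)
    {B : κ → Set E} (hB : ∀ j, IsClosed (B j)) (hLF : LF B Λ) :
    ∃ c > 0, ∀ j, Disjoint A (B j) → ∀ x ∈ A, ∀ y ∈ B j, c < dist x y := by
  classical
  obtain ⟨a, ha, haΛ⟩ := hA.exists_cthickening_subset_open hΛ hAΛ
  have hK : IsCompact (cthickening a A) := hA.cthickening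
  have hfin := finite_meet' hLF hK haΛ
  have hpos : ∀ j, Disjoint A (B j) → ∃ d > 0, ∀ x ∈ A, ∀ y ∈ B j, d < dist x y := by
    intro j hj
    obtain ⟨d, hd, hdis⟩ := hj.exists_thickenings hA (hB j)
    refine ⟨d / 2, half_pos hd, fun x hx y hy => ?_⟩
    by_contra hle
    push Not at hle
    exact Set.disjoint_left.1 hdis (self_subset_thickening hd _ hx)
      (mem_thickening_iff.2 ⟨y, hy, by linarith⟩)
  choose! d hd hdlt using hpos
  obtain ⟨e, he, hed⟩ : ∃ e > 0, ∀ j ∈ {j | (B j ∩ cthickening a A).Nonempty},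
      Disjoint A (B j) → e ≤ d j := by
    let J := hfin.toFinset.filter fun j => Disjoint A (B j)
    rcases J.eq_empty_or_nonempty with h | h
    · refine ⟨1, one_pos, fun j hj hj' => ?_⟩
      have : j ∈ J := Finset.mem_filter.2 ⟨hfin.mem_toFinset.2 hj, hj'⟩
      rw [h] at this
      simp at this
    · refine ⟨J.inf' h d, (Finset.lt_inf'_iff h).2 fun j hj => hd j (Finset.mem_filter.1 hj).2,
        fun j hj hj' => Finset.inf'_le d (Finset.mem_filter.2 ⟨hfin.mem_toFinset.2 hj, hj'⟩)⟩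
  refine ⟨min (a / 2) e, lt_min (half_pos ha) he, fun j hj x hx y hy => ?_⟩
  by_cases hy' : y ∈ cthickening a A
  · exact ((min_le_right _ _).trans (hed j ⟨y, hy, hy'⟩ hj)).trans_lt (hdlt j hj x hx y hy)
  · by_contra hle
    push Not at hle
    have h1 : dist x y ≤ a / 2 := hle.trans (min_le_left _ _)
    exact hy' (mem_cthickening_of_dist_le y x a _ hx (by rw [dist_comm]; linarith))

/-- a compact set in the open set `Λ` off the closed set `Z` -/
theorem exists_room {Λ : Set E} (hΛ : IsOpen Λ) {A : Set E} (hA : IsCompact A) (hAΛ : A ⊆ Λ)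
    {Z : Set E} (hZ : closure Z ∩ Λ ⊆ Z) (hAZ : Disjoint A Z) :
    ∃ c > 0, ∀ x, ∀ y ∈ A, dist x y ≤ c → x ∈ Λ ∧ x ∉ Z := by
  have hopen : IsOpen (Λ ∩ (closure Z)ᶜ) := hΛ.inter isClosed_closure.isOpen_compl
  have hAo : A ⊆ Λ ∩ (closure Z)ᶜ := fun x hx =>
    ⟨hAΛ hx, fun hz => Set.disjoint_left.1 hAZ hx (hZ ⟨hz, hAΛ hx⟩)⟩
  obtain ⟨a, ha, haΛ⟩ := hA.exists_cthickening_subset_open hopen hAo
  refine ⟨a, ha, fun x y hy hxy => ?_⟩
  have hxK : x ∈ cthickening a A := mem_cthickening_of_dist_le x y a _ hy hxy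
  exact ⟨(haΛ hxK).1, fun hxZ => (haΛ hxK).2 (subset_closure hxZ)⟩

end General

theorem exists_dy {c : ℝ} (hc : 0 < c) : ∃ r : ℝ, 0 < r ∧ (∃ n : ℕ, r = 1 / 2 ^ n) ∧ 8 * r < c := by
  obtain ⟨n, hn⟩ := exists_pow_lt_of_lt_one (show 0 < c / 8 by linarith)
    (show (1 / 2 : ℝ) < 1 by norm_num)
  rw [one_div_pow] at hn
  exact ⟨1 / 2 ^ n, by positivity, ⟨n, rfl⟩, by linarith⟩

/-- the nearest point of a box in the sup norm -/
theorem exists_near {lo hi : V} (h : ∀ k, lo k ≤ hi k) {t : ℝ} (ht : 0 ≤ t) {x : V}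
    (hx : ∀ k, lo k - t ≤ x k ∧ x k ≤ hi k + t) : ∃ y ∈ Icc lo hi, dist x y ≤ t := by
  refine ⟨fun k => max (lo k) (min (x k) (hi k)), ⟨fun k => le_max_left _ _, fun k =>
    max_le (h k) (min_le_right _ _)⟩, ?_⟩
  rw [dist_pi_le_iff ht]
  intro k
  obtain ⟨h1, h2⟩ := hx k
  have h3 := h k
  rw [Real.dist_eq, abs_le]
  rcases le_total (x k) (hi k) with h4 | h4
  · rw [min_eq_left h4]
    rcases le_total (lo k) (x k) with h5 | h5
    · rw [max_eq_right h5]; constructor <;> linarith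
    · rw [max_eq_left h5]; constructor <;> linarith
  · rw [min_eq_right h4, max_eq_right h3]; constructor <;> linarith

/-- points near a box -/
theorem near_of_dist {lo hi : V} {t : ℝ} {x y : V} (hy : y ∈ Icc lo hi) (h : dist x y ≤ t) (k : Fin 3) :
    lo k - t ≤ x k ∧ x k ≤ hi k + t := by
  have h1 := (dist_le_pi_dist x y k).trans h
  rw [Real.dist_eq, abs_le] at h1
  have h2 := hy.1 k
  have h3 := hy.2 k
  constructor <;> linarith

end P073.PA691
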