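import Mathlib.Topology.Connected.Clopen
import Mathlib.Topology.Separation.Profinite
import Mathlib.Topology.MetricSpace.Thickening
import Mathlib.Topology.MetricSpace.HausdorffDistance

/-!
# P073, block PH: partitions of compact sets, gap lemma
-/

open Set Metric Topology Filter

namespace P073.PH

/-- In a compact Hausdorff space a closed set which misses the component of `x` is contained in
the complement of a clopen neighbourhood of `x`. -/
theorem exists_clopen_of_component {T : Type*} [TopologicalSpace T] [CompactSpace T] [T2Space T]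
    (x : T) {J : Set T} (hJ : IsClosed J) (h : Disjoint (connectedComponent x) J) :
    ∃ U : Set T, IsClopen U ∧ x ∈ U ∧ Disjoint U J := by
  have h0 : connectedComponent x ⊆ Jᶜ := by
    intro y hy hyJ
    exact Set.disjoint_left.1 h hy hyJ
  rw [connectedComponent_eq_iInter_isClopen] at h0
  have : Nonempty { s : Set T // IsClopen s ∧ x ∈ s } := ⟨⟨univ, isClopen_univ, mem_univ x⟩⟩
  obtain ⟨s, hs⟩ := exists_subset_nhds_of_isCompact' (V := fun s : { s : Set T // IsClopen s ∧ x ∈ s } => (s : Set T)) (by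
      intro s t
      refine ⟨⟨s ∩ t, s.2.1.inter t.2.1, s.2.2, t.2.2⟩, inter_subset_left, inter_subset_right⟩)
    (fun s => s.2.1.1.isCompact) (fun s => s.2.1.1) (U := Jᶜ) (by
      intro y hy
      exact hJ.isOpen_compl.mem_nhds (h0 hy))
  exact ⟨s, s.2.1, s.2.2, Set.disjoint_left.2 fun y hy hyJ => hs hy hyJ⟩

/-- **Partition lemma**, space form. -/
theorem part_space {T : Type*} [TopologicalSpace T] [CompactSpace T] [T2Space T] {J₁ J₂ : Set T}
    (h1 : IsClosed J₁) (h2 : IsClosed J₂)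
    (h : ∀ x ∈ J₁, Disjoint (connectedComponent x) J₂) :
    ∃ U : Set T, IsClopen U ∧ J₁ ⊆ U ∧ Disjoint U J₂ := by
  choose! U hU hxU hUJ using fun x hx => exists_clopen_of_component x h2 (h x hx)
  obtain ⟨t, hcov⟩ := h1.isCompact.elim_nhds_subcover' (fun x _ => U x)
    (fun x hx => (hU x hx).isOpen.mem_nhds (hxU x hx))
  refine ⟨⋃ x ∈ t, U x, ?_, hcov, ?_⟩
  · exact isClopen_biUnion_finset fun x _ => hU x x.2
  · rw [Set.disjoint_left]
    intro y hy hyJ
    simp only [mem_iUnion] at hy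
    obtain ⟨x, _, hyx⟩ := hy
    exact Set.disjoint_left.1 (hUJ x x.2) hyx hyJ

/-- **Partition lemma.** Either a continuum in the compact set `P` joins `J₁` to `J₂`, or `P`
splits into two disjoint compact sets containing `P ∩ J₁` and `P ∩ J₂` respectively. -/
theorem part {E : Type*} [TopologicalSpace E] [T2Space E] {P J₁ J₂ : Set E} (hP : IsCompact P)
    (h1 : IsClosed J₁) (h2 : IsClosed J₂) :
    (∃ Z ⊆ P, IsCompact Z ∧ IsPreconnected Z ∧ (Z ∩ J₁).Nonempty ∧ (Z ∩ J₂).Nonempty) ∨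
    (∃ P₁ P₂ : Set E, IsCompact P₁ ∧ IsCompact P₂ ∧ Disjoint P₁ P₂ ∧ P₁ ∪ P₂ = P ∧
      P ∩ J₁ ⊆ P₁ ∧ P ∩ J₂ ⊆ P₂) := by
  have : CompactSpace P := isCompact_iff_compactSpace.1 hP
  by_cases hc : ∀ x ∈ ((↑) : P → E) ⁻¹' J₁, Disjoint (connectedComponent x) (((↑) : P → E) ⁻¹' J₂)
  · right
    obtain ⟨U, hU, hJU, hUJ⟩ := part_space (h1.preimage continuous_subtype_val)
      (h2.preimage continuous_subtype_val) hc
    refine ⟨(↑) '' U, (↑) '' Uᶜ, hU.1.isCompact.image continuous_subtype_val,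
      hU.compl.1.isCompact.image continuous_subtype_val, ?_, ?_, ?_, ?_⟩
    · rw [Set.disjoint_image_iff Subtype.val_injective]
      exact disjoint_compl_right
    · rw [← image_union, union_compl_self, image_univ, Subtype.range_coe]
    · rintro x ⟨hx, hxJ⟩
      exact ⟨⟨x, hx⟩, hJU hxJ, rfl⟩
    · rintro x ⟨hx, hxJ⟩
      exact ⟨⟨x, hx⟩, fun hxU => Set.disjoint_left.1 hUJ hxU hxJ, rfl⟩
  · left
    push Not at hc
    obtain ⟨x, hx, hxc⟩ := hc
    rw [Set.not_disjoint_iff] at hxc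
    obtain ⟨y, hy, hyJ⟩ := hxc
    refine ⟨(↑) '' connectedComponent x, ?_, isClosed_connectedComponent.isCompact.image
      continuous_subtype_val, isPreconnected_connectedComponent.image _
      continuous_subtype_val.continuousOn, ⟨x, ⟨x, mem_connectedComponent, rfl⟩, hx⟩,
      ⟨y, ⟨y, hy, rfl⟩, hyJ⟩⟩
    rintro _ ⟨z, _, rfl⟩
    exact z.2

/-- partition lemma for two points -/
theorem part_pair {E : Type*} [TopologicalSpace E] [T2Space E] {P : Set E} (hP : IsCompact P)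
    {x y : E} (hx : x ∈ P) (hy : y ∈ P) :
    (∃ Z ⊆ P, IsCompact Z ∧ IsPreconnected Z ∧ x ∈ Z ∧ y ∈ Z) ∨
    (∃ P₁ P₂ : Set E, IsCompact P₁ ∧ IsCompact P₂ ∧ Disjoint P₁ P₂ ∧ P₁ ∪ P₂ = P ∧
      x ∈ P₁ ∧ y ∈ P₂) := by
  rcases part hP (isClosed_singleton (x := x)) (isClosed_singleton (x := y)) with
    ⟨Z, h1, h2, h3, ⟨a, ha, rfl⟩, ⟨b, hb, rfl⟩⟩ | ⟨P₁, P₂, h1, h2, h3, h4, h5, h6⟩
  · exact Or.inl ⟨Z, h1, h2, h3, ha, hb⟩
  · exact Or.inr ⟨P₁, P₂, h1, h2, h3, h4, h5 ⟨hx, rfl⟩, h6 ⟨hy, rfl⟩⟩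

/-- **Gap lemma.** -/
theorem gap {E : Type*} [MetricSpace E] {P X : Set E} (hP : IsCompact P) (hX : X.Finite)
    (hXP : X ⊆ P) :
    ∃ η > 0, ∀ M : Set E, IsPreconnected M → M ⊆ thickening η P → ∀ x ∈ X, ∀ y ∈ X,
      (M ∩ ball x η).Nonempty → (M ∩ ball y η).Nonempty →
        ∃ Z ⊆ P, IsCompact Z ∧ IsPreconnected Z ∧ x ∈ Z ∧ y ∈ Z := by
  have key : ∀ x ∈ X, ∀ y ∈ X, ∃ η : ℝ, 0 < η ∧ ∀ M : Set E, IsPreconnected M →
      M ⊆ thickening η P → (M ∩ ball x η).Nonempty → (M ∩ ball y η).Nonempty →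
        ∃ Z ⊆ P, IsCompact Z ∧ IsPreconnected Z ∧ x ∈ Z ∧ y ∈ Z := by
    intro x hx y hy
    rcases part_pair hP (hXP hx) (hXP hy) with h | ⟨P₁, P₂, h1, h2, h3, h4, h5, h6⟩
    · exact ⟨1, one_pos, fun _ _ _ _ _ => h⟩
    · obtain ⟨δ, hδ, hd⟩ := h3.exists_thickenings h1 h2.isClosed
      refine ⟨δ, hδ, fun M hM hMP h7 h8 => ?_⟩
      exfalso
      obtain ⟨a, haM, hax⟩ := h7
      obtain ⟨b, hbM, hbx⟩ := h8
      have hcov : M ⊆ thickening δ P₁ ∪ thickening δ P₂ := by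
        intro z hz
        have := hMP hz
        rw [← h4, mem_thickening_iff] at this
        obtain ⟨w, hw, hzw⟩ := this
        rcases hw with hw | hw
        · exact Or.inl (mem_thickening_iff.2 ⟨w, hw, hzw⟩)
        · exact Or.inr (mem_thickening_iff.2 ⟨w, hw, hzw⟩)
      obtain ⟨z, _, hz1, hz2⟩ := hM _ _ isOpen_thickening isOpen_thickening hcov
        ⟨a, haM, mem_thickening_iff.2 ⟨x, h5, hax⟩⟩ ⟨b, hbM, mem_thickening_iff.2 ⟨y, h6, hbx⟩⟩
      exact Set.disjoint_left.1 hd hz1 hz2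
  choose! η hη hη' using key
  rcases (X ×ˢ X).eq_empty_or_nonempty with hE | hE
  · refine ⟨1, one_pos, fun M _ _ x hx y hy _ _ => ?_⟩
    exact absurd (show (x, y) ∈ X ×ˢ X from ⟨hx, hy⟩) (by rw [hE]; exact notMem_empty _)
  · obtain ⟨p, hp, hmin⟩ := Set.exists_min_image (X ×ˢ X) (fun p : E × E => η p.1 p.2)
      (hX.prod hX) hE
    refine ⟨η p.1 p.2, hη p.1 hp.1 p.2 hp.2, fun M hM hMP x hx y hy h1 h2 => ?_⟩
    have hle : η p.1 p.2 ≤ η x y := hmin (x, y) ⟨hx, hy⟩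
    exact hη' x hx y hy M hM (hMP.trans (thickening_mono hle _))
      (h1.mono (inter_subset_inter_right _ (ball_subset_ball hle)))
      (h2.mono (inter_subset_inter_right _ (ball_subset_ball hle)))

end P073.PH
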