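import Vale.Agent.P073.PR720.Cx

/-!
# P073, block TM-B: dyadic radii

For a locally finite family of compact sets `A i` in an open set `Λ`, a set `Z` closed in `Λ` and
disjoint from the `A i` and a positive continuous function `δ` there are dyadic radii
`r i = 2^{-N i}` such that the neighbourhoods of radius `M * r i` are in `Λ`, miss `Z`, are
disjoint if the sets are disjoint, `r i ≤ δ` there, and the radii of the sets which are not
distinguished (edges) are much smaller than the radii of the distinguished sets (vertices) which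
they meet.
-/

open Set Metric Topology Filter

namespace P073.TMB

variable {E : Type*} [NormedAddCommGroup E] [NormedSpace ℝ E] [ProperSpace E] {ι : Type*}

omit [NormedSpace ℝ E] [ProperSpace E] in
/-- a compact set meets finitely many members of a locally finite family -/
theorem finite_meet {A : ι → Set E} {W K : Set E} (hA : PR720.LF A W) (hK : IsCompact K)
    (hKW : K ⊆ W) : {i | (A i ∩ K).Nonempty}.Finite := by
  refine hK.induction_on (p := fun K => {i | (A i ∩ K).Nonempty}.Finite) ?_ ?_ ?_ ?_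
  · simp
  · intro s t hst ht
    exact ht.subset fun i hi => hi.mono (inter_subset_inter_right _ hst)
  · intro s t hs ht
    refine (hs.union ht).subset ?_
    rintro i ⟨x, hx, hx' | hx'⟩
    · exact Or.inl ⟨x, hx, hx'⟩
    · exact Or.inr ⟨x, hx, hx'⟩
  · intro x hx
    obtain ⟨U, hU, hfin⟩ := hA x (hKW hx)
    exact ⟨U, mem_nhdsWithin_of_mem_nhds hU, hfin⟩

/-- a positive radius for one set of the family -/
theorem exists_radius {Λ : Set E} (hΛ : IsOpen Λ) {A : ι → Set E} (hc : ∀ i, IsCompact (A i))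
    (hsub : ∀ i, A i ⊆ Λ) (hLF : PR720.LF A Λ) {Z : Set E} (hZ : closure Z ∩ Λ ⊆ Z)
    (hZd : ∀ i, Disjoint (A i) Z) {δ : E → ℝ} (hδ : ContinuousOn δ Λ) (hδ0 : ∀ x ∈ Λ, 0 < δ x)
    (i : ι) : ∃ c > 0, (∀ x, ∀ y ∈ A i, dist x y ≤ c → x ∈ Λ ∧ x ∉ Z ∧ c ≤ δ x) ∧
      ∀ j, Disjoint (A i) (A j) → ∀ x ∈ A i, ∀ y ∈ A j, c < dist x y := by
  classical
  have hopen : IsOpen (Λ ∩ (closure Z)ᶜ) := hΛ.inter isClosed_closure.isOpen_compl
  have hAo : A i ⊆ Λ ∩ (closure Z)ᶜ := fun x hx =>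
    ⟨hsub i hx, fun hz => Set.disjoint_left.1 (hZd i) hx (hZ ⟨hz, hsub i hx⟩)⟩
  obtain ⟨a, ha, haΛ⟩ := (hc i).exists_cthickening_subset_open hopen hAo
  have hK : IsCompact (cthickening a (A i)) := (hc i).cthickening
  have hKΛ : cthickening a (A i) ⊆ Λ := haΛ.trans inter_subset_left
  -- a lower bound of `δ`
  obtain ⟨m, hm, hmδ⟩ : ∃ m > 0, ∀ x ∈ cthickening a (A i), m ≤ δ x := by
    rcases (cthickening a (A i)).eq_empty_or_nonempty with h0 | h0
    · exact ⟨1, one_pos, fun x hx => by rw [h0] at hx; exact absurd hx (notMem_empty x)⟩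
    · obtain ⟨x, hx, hmin⟩ := hK.exists_isMinOn h0 (hδ.mono hKΛ)
      exact ⟨δ x, hδ0 x (hKΛ hx), fun y hy => hmin hy⟩
  -- the finitely many sets nearby
  have hfin := finite_meet hLF hK hKΛ
  have hpos : ∀ j, Disjoint (A i) (A j) → ∃ d > 0, ∀ x ∈ A i, ∀ y ∈ A j, d < dist x y := by
    intro j hj
    obtain ⟨d, hd, hdis⟩ := hj.exists_thickenings (hc i) (hc j).isClosed
    refine ⟨d / 2, half_pos hd, fun x hx y hy => ?_⟩
    by_contra hle
    push Not at hle
    exact Set.disjoint_left.1 hdis (self_subset_thickening hd _ hx)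
      (mem_thickening_iff.2 ⟨y, hy, by linarith⟩)
  choose! d hd hdlt using hpos
  obtain ⟨e, he, hed⟩ : ∃ e > 0, ∀ j ∈ {j | (A j ∩ cthickening a (A i)).Nonempty},
      Disjoint (A i) (A j) → e ≤ d j := by
    let J := hfin.toFinset.filter fun j => Disjoint (A i) (A j)
    rcases J.eq_empty_or_nonempty with h | h
    · refine ⟨1, one_pos, fun j hj hj' => ?_⟩
      have : j ∈ J := Finset.mem_filter.2 ⟨hfin.mem_toFinset.2 hj, hj'⟩
      rw [h] at this
      simp at this
    · refine ⟨J.inf' h d, (Finset.lt_inf'_iff h).2 fun j hj => hd j (Finset.mem_filter.1 hj).2,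
        fun j hj hj' => Finset.inf'_le d (Finset.mem_filter.2 ⟨hfin.mem_toFinset.2 hj, hj'⟩)⟩
  have hmin : 0 < min (min (a / 2) m) e := lt_min (lt_min (by linarith) hm) he
  have e1 : min (min (a / 2) m) e ≤ a / 2 := (min_le_left _ _).trans (min_le_left _ _)
  have e2 : min (min (a / 2) m) e ≤ m := (min_le_left _ _).trans (min_le_right _ _)
  have e3 : min (min (a / 2) m) e ≤ e := min_le_right _ _
  refine ⟨_, hmin, fun x y hy hxy => ?_, fun j hj x hx y hy => ?_⟩
  · have hxK : x ∈ cthickening a (A i) := mem_cthickening_of_dist_le x y a _ hy (by linarith)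
    exact ⟨hKΛ hxK, fun hxZ => (haΛ hxK).2 (subset_closure hxZ), e2.trans (hmδ x hxK)⟩
  · by_cases hy' : y ∈ cthickening a (A i)
    · exact (e3.trans (hed j ⟨y, hy, hy'⟩ hj)).trans_lt (hdlt j hj x hx y hy)
    · by_contra hle
      push Not at hle
      exact hy' (mem_cthickening_of_dist_le y x a _ hx (by rw [dist_comm]; linarith))

/-- **Dyadic radii.** -/
theorem exists_radii {Λ : Set E} (hΛ : IsOpen Λ) {A : ι → Set E} (hc : ∀ i, IsCompact (A i))
    (hsub : ∀ i, A i ⊆ Λ) (hLF : PR720.LF A Λ) {Z : Set E} (hZ : closure Z ∩ Λ ⊆ Z)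
    (hZd : ∀ i, Disjoint (A i) Z) {δ : E → ℝ} (hδ : ContinuousOn δ Λ) (hδ0 : ∀ x ∈ Λ, 0 < δ x)
    (vert : ι → Prop) {M : ℝ} (hM : 0 < M) (k : ℕ) :
    ∃ N : ι → ℕ,
      (∀ i x, ∀ y ∈ A i, dist x y ≤ M * (1 / 2 ^ N i) →
        x ∈ Λ ∧ x ∉ Z ∧ M * (1 / 2 ^ N i) ≤ δ x) ∧
      (∀ i j, Disjoint (A i) (A j) → ∀ x ∈ A i, ∀ y ∈ A j,
        M * (1 / 2 ^ N i) < dist x y ∧ M * (1 / 2 ^ N j) < dist x y) ∧
      ∀ i j, ¬ vert i → vert j → ¬ Disjoint (A i) (A j) →
        2 ^ k * (1 / 2 ^ N i : ℝ) ≤ 1 / 2 ^ N j := by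
  classical
  choose c hc0 hc1 hc2 using exists_radius hΛ hc hsub hLF hZ hZd hδ hδ0
  have hN0 : ∀ i, ∃ n : ℕ, M * (1 / 2 ^ n) ≤ c i := by
    intro i
    obtain ⟨n, hn⟩ := exists_pow_lt_of_lt_one (show 0 < c i / M from div_pos (hc0 i) hM)
      (show (1 / 2 : ℝ) < 1 by norm_num)
    refine ⟨n, ?_⟩
    rw [one_div_pow] at hn
    rw [lt_div_iff₀ hM] at hn
    linarith
  choose N₀ hN₀ using hN0
  have hfin : ∀ i, {j | (A j ∩ A i).Nonempty}.Finite := fun i => finite_meet hLF (hc i) (hsub i)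
  let N : ι → ℕ := fun i =>
    if vert i then N₀ i else N₀ i + (∑ j ∈ (hfin i).toFinset, N₀ j) + k
  have hle : ∀ i, N₀ i ≤ N i := by
    intro i
    by_cases h : vert i
    · simp only [N, h, if_true]; exact le_rfl
    · simp only [N, h, if_false]; omega
  have hmono : ∀ i, M * (1 / 2 ^ N i) ≤ c i := by
    intro i
    refine le_trans (mul_le_mul_of_nonneg_left ?_ hM.le) (hN₀ i)
    exact one_div_le_one_div_of_le (by positivity) (pow_le_pow_right₀ (by norm_num) (hle i))
  refine ⟨N, fun i x y hy hxy => ?_, fun i j hij x hx y hy => ⟨?_, ?_⟩, fun i j hi hj hij => ?_⟩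
  · obtain ⟨h1, h2, h3⟩ := hc1 i x y hy (hxy.trans (hmono i))
    exact ⟨h1, h2, (hmono i).trans h3⟩
  · exact (hmono i).trans_lt (hc2 i j hij x hx y hy)
  · rw [dist_comm]
    exact (hmono j).trans_lt (hc2 j i hij.symm y hy x hx)
  · have hNj : N j = N₀ j := by simp only [N, hj, if_true]
    have hNi : N₀ j + k ≤ N i := by
      simp only [N, hi, if_false]
      have hmem : j ∈ (hfin i).toFinset := by
        rw [(hfin i).mem_toFinset]
        rw [Set.not_disjoint_iff] at hij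
        obtain ⟨x, hx, hx'⟩ := hij
        exact ⟨x, hx', hx⟩
      have := Finset.single_le_sum (f := N₀) (fun _ _ => Nat.zero_le _) hmem
      omega
    rw [hNj]
    have h1 : (1 / 2 ^ N i : ℝ) ≤ 1 / 2 ^ (N₀ j + k) :=
      one_div_le_one_div_of_le (by positivity) (pow_le_pow_right₀ (by norm_num) hNi)
    calc (2 : ℝ) ^ k * (1 / 2 ^ N i) ≤ 2 ^ k * (1 / 2 ^ (N₀ j + k)) :=
          mul_le_mul_of_nonneg_left h1 (by positivity)
      _ = 1 / 2 ^ N₀ j := by
          rw [pow_add]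
          field_simp

end P073.TMB
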