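import Vale.Agent.P073.PR720.Cx

/-!
# P073, block PLS: size functions

For a locally finite family of sets `A i` and positive numbers `c i` there is a positive Lipschitz
function `η` with `η x < c i` whenever `x` is at distance at most `η x` of `A i`.
-/

open Set Metric Topology Filter

namespace P073.PLS

section Metric

variable {α : Type*} [PseudoMetricSpace α] {I : Type*}

/-- the function `x ↦ max (c i) (infDist x (A i))`, and `1` for `none` -/
noncomputable def sizeVal (A : I → Set α) (c : I → ℝ) (o : Option {i // (A i).Nonempty}) (x : α) :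
    ℝ :=
  o.elim 1 fun i => max (c i) (infDist x (A i))

/-- half the infimum of the functions `max (c i) (infDist x (A i))` -/
noncomputable def sizeFn (A : I → Set α) (c : I → ℝ) (x : α) : ℝ :=
  (⨅ o, sizeVal A c o x) / 2

variable {A : I → Set α} {c : I → ℝ}

theorem sizeVal_nonneg (hc : ∀ i, 0 < c i) (o : Option {i // (A i).Nonempty}) (x : α) :
    0 ≤ sizeVal A c o x := by
  cases o with
  | none => exact zero_le_one
  | some i => exact le_max_of_le_left (hc i).le

theorem sizeVal_le (o : Option {i // (A i).Nonempty}) (x y : α) :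
    sizeVal A c o x ≤ sizeVal A c o y + dist x y := by
  cases o with
  | none => exact le_add_of_nonneg_right dist_nonneg
  | some i =>
    show max (c i) (infDist x (A i)) ≤ max (c i) (infDist y (A i)) + dist x y
    refine max_le ?_ ?_
    · exact (le_max_left _ _).trans (le_add_of_nonneg_right dist_nonneg)
    · exact (infDist_le_infDist_add_dist).trans (add_le_add_left (le_max_right _ _) _)

theorem sizeFn_bdd (hc : ∀ i, 0 < c i) (x : α) :
    BddBelow (range fun o => sizeVal A c o x) :=
  ⟨0, by rintro _ ⟨o, rfl⟩; exact sizeVal_nonneg hc o x⟩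

theorem sizeFn_le_add (hc : ∀ i, 0 < c i) (x y : α) :
    2 * sizeFn A c x ≤ 2 * sizeFn A c y + dist x y := by
  have h : (⨅ o, sizeVal A c o x) - dist x y ≤ ⨅ o, sizeVal A c o y :=
    le_ciInf fun o => by
      have h1 := ciInf_le (sizeFn_bdd (A := A) hc x) o
      have h2 := sizeVal_le (A := A) (c := c) o x y
      linarith
  unfold sizeFn
  linarith

theorem lipschitz_sizeFn (hc : ∀ i, 0 < c i) : LipschitzWith 1 (sizeFn A c) :=
  LipschitzWith.of_le_add fun x y => by
    have h1 := sizeFn_le_add (A := A) hc x y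
    have h2 : 0 ≤ dist x y := dist_nonneg
    linarith

theorem sizeFn_lt (hc : ∀ i, 0 < c i) {x : α} {i : I} (hi : (A i).Nonempty)
    (h : infDist x (A i) ≤ sizeFn A c x) : sizeFn A c x < c i := by
  have h1 : 2 * sizeFn A c x ≤ max (c i) (infDist x (A i)) := by
    have := ciInf_le (sizeFn_bdd (A := A) hc x) (some ⟨i, hi⟩)
    unfold sizeFn
    simpa [sizeVal, mul_div_cancel₀] using this
  have h2 : 0 ≤ infDist x (A i) := infDist_nonneg
  have h3 := hc i
  rcases max_cases (c i) (infDist x (A i)) with h4 | h4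
  · linarith [h4.1]
  · linarith [h4.1]

theorem sizeFn_lt_of_dist (hc : ∀ i, 0 < c i) {x y : α} {i : I} (hy : y ∈ A i)
    (h : dist x y ≤ sizeFn A c x) : sizeFn A c x < c i :=
  sizeFn_lt hc ⟨y, hy⟩ ((infDist_le_dist_of_mem hy).trans h)

theorem sizeFn_le_half (hc : ∀ i, 0 < c i) (x : α) : sizeFn A c x ≤ 1 / 2 := by
  have := ciInf_le (sizeFn_bdd (A := A) hc x) none
  unfold sizeFn
  have h : sizeVal A c none x = 1 := rfl
  linarith

theorem sizeFn_pos (hc : ∀ i, 0 < c i) {x : α}
    (hx : ∃ U ∈ 𝓝 x, {i | (A i ∩ U).Nonempty}.Finite) : 0 < sizeFn A c x := by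
  obtain ⟨U, hU, hfin⟩ := hx
  obtain ⟨r, hr, hrU⟩ := Metric.mem_nhds_iff.1 hU
  -- a positive lower bound for the finitely many relevant `c i`
  obtain ⟨m, hm, hmc⟩ : ∃ m > 0, ∀ i ∈ {i | (A i ∩ U).Nonempty}, m ≤ c i := by
    rcases hfin.toFinset.eq_empty_or_nonempty with h | h
    · refine ⟨1, one_pos, fun i hi => ?_⟩
      have : i ∈ hfin.toFinset := hfin.mem_toFinset.2 hi
      rw [h] at this
      simp at this
    · refine ⟨hfin.toFinset.inf' h c, (Finset.lt_inf'_iff h).2 fun i _ => hc i, fun i hi => ?_⟩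
      exact Finset.inf'_le c (hfin.mem_toFinset.2 hi)
  have key : min 1 (min m r) ≤ ⨅ o, sizeVal A c o x := by
    refine le_ciInf fun o => ?_
    cases o with
    | none => exact min_le_left _ _
    | some i =>
      show _ ≤ max (c i) (infDist x (A i))
      by_cases hi : (A i ∩ U).Nonempty
      · exact ((min_le_right _ _).trans (min_le_left _ _)).trans
          ((hmc i hi).trans (le_max_left _ _))
      · refine ((min_le_right _ _).trans (min_le_right _ _)).trans
          (le_trans ?_ (le_max_right _ _))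
        refine (le_infDist i.2).2 fun y hy => ?_
        by_contra hlt
        push Not at hlt
        exact hi ⟨y, hy, hrU (by rw [mem_ball, dist_comm]; exact hlt)⟩
  have h1 : 0 < min 1 (min m r) := lt_min one_pos (lt_min hm hr)
  unfold sizeFn
  linarith

end Metric

/-- **Size functions.** -/
theorem exists_size {E : Type*} [NormedAddCommGroup E] {I : Type*} (A : I → Set E) (W : Set E)
    (hA : PR720.LF A W) (c : I → ℝ) (hc : ∀ i, 0 < c i) :
    ∃ η : E → ℝ, LipschitzWith 1 η ∧ (∀ x ∈ W, 0 < η x) ∧
      ∀ x, ∀ i, ∀ y ∈ A i, dist x y ≤ η x → η x < c i :=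
  ⟨sizeFn A c, lipschitz_sizeFn hc, fun x hx => sizeFn_pos hc (hA x hx),
    fun _ _ _ hy h => sizeFn_lt_of_dist hc hy h⟩

end P073.PLS
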