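import Vale.Agent.P073.H527.SizesA

/-!
# P073, block TM-B: the radii of a box complex
-/

open Set Metric Topology Filter

namespace P073.PA691

open P073 PR720
open Vale.Agent.P073.St (V IsInv)

namespace BoxCx

variable {Λ : Set V} {v : V} (K : BoxCx Λ v)

/-- two edges of the same direction have different starting points -/
theorem start_ne {e e' : K.G} (he : e ≠ e') (hd : K.dir e = K.dir e') : K.a e ≠ K.a e' := by
  intro ha
  set d := K.dir e with hdd
  set t : ℝ := (K.w (K.a e) d + min (K.w (K.b e) d) (K.w (K.b e') d)) / 2 with ht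
  have h1 : K.w (K.a e) d < K.w (K.b e) d := K.ab_dir e
  have h2 : K.w (K.a e) d < K.w (K.b e') d := by
    have := K.ab_dir e'
    rwa [← ha, ← hd] at this
  have h3 : K.w (K.a e) d < min (K.w (K.b e) d) (K.w (K.b e') d) := lt_min h1 h2
  have h4 : K.w (K.a e) d < t := by rw [ht]; linarith
  have h5 : t < min (K.w (K.b e) d) (K.w (K.b e') d) := by rw [ht]; linarith
  have h6 : t < K.w (K.b e) d := h5.trans_le (min_le_left _ _)
  have h7 : t < K.w (K.b e') d := h5.trans_le (min_le_right _ _)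
  have hx : Function.update (K.w (K.a e)) d t ∈ Icc (K.w (K.a e)) (K.w (K.b e)) := by
    refine ⟨fun k => ?_, fun k => ?_⟩
    · by_cases hk : k = d
      · subst hk; rw [Function.update_self]; exact h4.le
      · rw [Function.update_of_ne hk]
    · by_cases hk : k = d
      · subst hk; rw [Function.update_self]; exact h6.le
      · rw [Function.update_of_ne hk]; exact K.ab_le e k
  have hx' : Function.update (K.w (K.a e)) d t ∈ Icc (K.w (K.a e')) (K.w (K.b e')) := by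
    refine ⟨fun k => ?_, fun k => ?_⟩
    · rw [← ha]; exact hx.1 k
    · by_cases hk : k = d
      · subst hk; rw [Function.update_self]; exact h7.le
      · rw [Function.update_of_ne hk, ha]; exact K.ab_le e' k
  obtain ⟨i, hi⟩ := K.edge_meet e e' he _ hx hx'
  rw [hi] at hx
  have h8 : K.w i d = t := by rw [← hi, Function.update_self]
  rcases K.w_on_edge i e hx with rfl | rfl
  · linarith
  · linarith

/-- two edges of the same direction have different end points -/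
theorem end_ne {e e' : K.G} (he : e ≠ e') (hd : K.dir e = K.dir e') : K.b e ≠ K.b e' := by
  intro hb
  set d := K.dir e with hdd
  set t : ℝ := (K.w (K.b e) d + max (K.w (K.a e) d) (K.w (K.a e') d)) / 2 with ht
  have h1 : K.w (K.a e) d < K.w (K.b e) d := K.ab_dir e
  have h2 : K.w (K.a e') d < K.w (K.b e) d := by
    have := K.ab_dir e'
    rwa [← hb, ← hd] at this
  have h3 : max (K.w (K.a e) d) (K.w (K.a e') d) < K.w (K.b e) d := max_lt h1 h2
  have h4 : t < K.w (K.b e) d := by rw [ht]; linarith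
  have h5 : max (K.w (K.a e) d) (K.w (K.a e') d) < t := by rw [ht]; linarith
  have h6 : K.w (K.a e) d < t := (le_max_left _ _).trans_lt h5
  have h7 : K.w (K.a e') d < t := (le_max_right _ _).trans_lt h5
  have hx : Function.update (K.w (K.b e)) d t ∈ Icc (K.w (K.a e)) (K.w (K.b e)) := by
    refine ⟨fun k => ?_, fun k => ?_⟩
    · by_cases hk : k = d
      · subst hk; rw [Function.update_self]; exact h6.le
      · rw [Function.update_of_ne hk]; exact K.ab_le e k
    · by_cases hk : k = d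
      · subst hk; rw [Function.update_self]; exact h4.le
      · rw [Function.update_of_ne hk]
  have hx' : Function.update (K.w (K.b e)) d t ∈ Icc (K.w (K.a e')) (K.w (K.b e')) := by
    refine ⟨fun k => ?_, fun k => ?_⟩
    · by_cases hk : k = d
      · subst hk; rw [Function.update_self]; exact h7.le
      · rw [Function.update_of_ne hk, hb]; exact K.ab_le e' k
    · rw [← hb]; exact hx.2 k
  obtain ⟨i, hi⟩ := K.edge_meet e e' he _ hx hx'
  rw [hi] at hx
  have h8 : K.w i d = t := by rw [← hi, Function.update_self]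
  rcases K.w_on_edge i e hx with rfl | rfl
  · linarith
  · linarith

/-- the data for the radii -/
structure Pre (Z : Set V) where
  c : K.W → ℝ
  r : K.W → ℝ
  ce : K.G → ℝ
  q : K.G → ℝ
  cs : K.S → ℝ
  r_pos : ∀ i, 0 < r i
  r_dy : ∀ i, ∃ n : ℕ, r i = 1 / 2 ^ n
  r_lt : ∀ i, 8 * r i < c i
  V1 : ∀ i x, dist x (K.w i) ≤ c i → x ∈ Λ ∧ x ∉ Z
  V2 : ∀ i p, K.w i ∉ K.cube p → ∀ y ∈ K.cube p, c i < dist (K.w i) y
  V3 : ∀ i p k, K.w i ∈ K.cube p → (K.w i k ≠ K.lo p k → K.lo p k < K.w i k - c i) ∧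
    (K.w i k ≠ K.hi p k → K.w i k + c i < K.hi p k)
  V4 : ∀ i i', i ≠ i' → c i < dist (K.w i) (K.w i')
  V5 : ∀ i e, K.w i ∉ K.edge e → ∀ y ∈ K.edge e, c i < dist (K.w i) y
  V6 : ∀ i s, K.w i ∉ K.sq s → ∀ y ∈ K.sq s, c i < dist (K.w i) y
  q_pos : ∀ e, 0 < q e
  q_dy : ∀ e, ∃ n : ℕ, q e = 1 / 2 ^ n
  q_lt : ∀ e, 8 * q e < ce e
  q_a : ∀ e, 8 * q e < r (K.a e)
  q_b : ∀ e, 8 * q e < r (K.b e)
  E1 : ∀ e x, ∀ y ∈ K.edge e, dist x y ≤ ce e → x ∈ Λ ∧ x ∉ Z
  E2 : ∀ e p, Disjoint (K.edge e) (K.cube p) → ∀ x ∈ K.edge e, ∀ y ∈ K.cube p, ce e < dist x y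
  E3 : ∀ e p, Disjoint (K.mid r e) (K.cube p) → ∀ x ∈ K.mid r e, ∀ y ∈ K.cube p, ce e < dist x y
  E4 : ∀ e s, Disjoint (K.mid r e) (K.sq s) → ∀ x ∈ K.mid r e, ∀ y ∈ K.sq s, ce e < dist x y
  E5 : ∀ e e', Disjoint (K.edge e) (K.edge e') → ∀ x ∈ K.edge e, ∀ y ∈ K.edge e',
    ce e < dist x y
  E6 : ∀ e i, K.w i ∉ K.edge e → ∀ x ∈ K.edge e, ce e < dist x (K.w i)
  E7 : ∀ e p k, K.edge e ⊆ K.cube p → k ≠ K.dir e →
    (K.w (K.a e) k ≠ K.lo p k → K.lo p k < K.w (K.a e) k - ce e) ∧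
    (K.w (K.a e) k ≠ K.hi p k → K.w (K.a e) k + ce e < K.hi p k)
  cs_pos : ∀ s, 0 < cs s
  S1 : ∀ s x, ∀ y ∈ K.sq s, dist x y ≤ cs s → x ∈ Λ
  S2 : ∀ s i, K.w i ∉ K.sq s → ∀ y ∈ K.sq s, cs s < dist y (K.w i)
  S3 : ∀ s e, Disjoint (K.sq s) (K.mid r e) → ∀ x ∈ K.sq s, ∀ y ∈ K.mid r e, cs s < dist x y
  S4 : ∀ s e, K.edge e ⊆ K.sq s → cs s < q e

theorem exists_pre (hΛ : IsOpen Λ) {Z : Set V} (hZ : closure Z ∩ Λ ⊆ Z)
    (hZe : ∀ x ∈ Z, ∀ e, x ∉ K.edge e) : Nonempty (K.Pre Z) := by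
  choose c hc V1 V2 V3 V4 V5 V6 using K.exists_vertex_const hΛ hZ hZe
  choose r hr r_dy r_lt using fun i => exists_dy (hc i)
  choose ce hce E1 E2 E3 E4 E5 E6 E7 using K.exists_edge_const hΛ hZ hZe r
  choose q hq q_dy q_lt using fun e => exists_dy (c := min (ce e) (min (r (K.a e)) (r (K.b e))))
    (lt_min (hce e) (lt_min (hr _) (hr _)))
  choose cs hcs S1 S2 S3 S4 using K.exists_square_const hΛ r q hq
  exact ⟨{
    c := c, r := r, ce := ce, q := q, cs := cs
    r_pos := hr, r_dy := r_dy, r_lt := r_lt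
    V1 := V1, V2 := V2, V3 := V3, V4 := V4, V5 := V5, V6 := V6
    q_pos := hq, q_dy := q_dy
    q_lt := fun e => (q_lt e).trans_le (min_le_left _ _)
    q_a := fun e => (q_lt e).trans_le ((min_le_right _ _).trans (min_le_left _ _))
    q_b := fun e => (q_lt e).trans_le ((min_le_right _ _).trans (min_le_right _ _))
    E1 := E1, E2 := E2, E3 := E3, E4 := E4, E5 := E5, E6 := E6, E7 := E7
    cs_pos := hcs, S1 := S1, S2 := S2, S3 := S3, S4 := S4 }⟩

namespace Pre

variable {K} {Z : Set V} (P : K.Pre Z)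

theorem near {e : K.G} {x : V} (hx : x ∈ K.nb e (2 * P.q e)) :
    ∃ y ∈ K.edge e, dist x y ≤ 2 * P.q e :=
  exists_near (K.ab_le e) (by linarith [P.q_pos e]) hx

theorem near_mid {e : K.G} {x : V} (hx : x ∈ K.nb e (2 * P.q e))
    (ha : x ∉ ball (K.w (K.a e)) (P.r (K.a e) / 2)) (hb : x ∉ ball (K.w (K.b e)) (P.r (K.b e) / 2)) :
    ∃ y ∈ K.mid P.r e, dist x y ≤ 2 * P.q e := by
  obtain ⟨y, hy, hxy⟩ := P.near hx
  rw [mem_ball, not_lt] at ha hb
  have h1 := dist_triangle x y (K.w (K.a e))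
  have h2 := dist_triangle x y (K.w (K.b e))
  have h3 := P.q_a e
  have h4 := P.q_b e
  exact ⟨y, ⟨hy, by linarith, by linarith⟩, hxy⟩

theorem ne_of_mid {e : K.G} {y : V} (hy : y ∈ K.mid P.r e) : y ≠ K.w (K.a e) ∧ y ≠ K.w (K.b e) := by
  have h1 := P.r_pos (K.a e)
  have h2 := P.r_pos (K.b e)
  constructor
  · rintro rfl
    have := hy.2.1
    rw [dist_self] at this
    linarith
  · rintro rfl
    have := hy.2.2
    rw [dist_self] at this
    linarith

theorem U_tile (i : K.W) (p : K.T) (x : V) (hx : x ∈ closedBall (K.w i) (2 * P.r i))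
    (hp : x ∈ K.cube p) : K.w i ∈ K.cube p ∧
    ∀ k, (K.w i k ≠ K.lo p k → K.lo p k < K.w i k - 2 * P.r i) ∧
      (K.w i k ≠ K.hi p k → K.w i k + 2 * P.r i < K.hi p k) := by
  have h1 := P.r_pos i
  have h2 := P.r_lt i
  rw [mem_closedBall, dist_comm] at hx
  have hw : K.w i ∈ K.cube p := by
    by_contra h
    have := P.V2 i p h x hp
    linarith
  refine ⟨hw, fun k => ⟨fun h => ?_, fun h => ?_⟩⟩
  · have := (P.V3 i p k hw).1 h
    linarith
  · have := (P.V3 i p k hw).2 h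
    linarith

theorem U_edge (i : K.W) (e : K.G) (x : V) (hx : x ∈ closedBall (K.w i) (2 * P.r i))
    (he : x ∈ K.nb e (2 * P.q e)) : i = K.a e ∨ i = K.b e := by
  obtain ⟨y, hy, hxy⟩ := P.near he
  rw [mem_closedBall] at hx
  have h1 := P.r_lt i
  have h2 := P.q_lt e
  have h3 : dist y (K.w i) ≤ 2 * P.q e + 2 * P.r i := by
    have := dist_triangle y x (K.w i)
    rw [dist_comm y x] at this
    linarith
  refine K.w_on_edge i e ?_
  by_contra h
  have h4 := P.V5 i e h y hy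
  have h5 := P.E6 e i h y hy
  rw [dist_comm] at h4
  have h6 : 0 ≤ dist y (K.w i) := dist_nonneg
  linarith

theorem tube_tile (e : K.G) (p : K.T) (x : V) (hx : x ∈ K.nb e (2 * P.q e)) (hp : x ∈ K.cube p)
    (ha : x ∉ ball (K.w (K.a e)) (P.r (K.a e) / 2)) (hb : x ∉ ball (K.w (K.b e)) (P.r (K.b e) / 2)) :
    K.edge e ⊆ K.cube p ∧ ∀ k, k ≠ K.dir e →
      (K.w (K.a e) k ≠ K.lo p k → K.lo p k < K.w (K.a e) k - 2 * P.q e) ∧
      (K.w (K.a e) k ≠ K.hi p k → K.w (K.a e) k + 2 * P.q e < K.hi p k) := by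
  obtain ⟨y, hy, hxy⟩ := P.near_mid hx ha hb
  have h1 := P.q_pos e
  have h2 := P.q_lt e
  have hsub : K.edge e ⊆ K.cube p := by
    by_cases hdis : Disjoint (K.mid P.r e) (K.cube p)
    · have := P.E3 e p hdis y hy x hp
      rw [dist_comm] at this
      linarith
    · obtain ⟨z, hz, hzp⟩ := Set.not_disjoint_iff.1 hdis
      obtain ⟨h3, h4⟩ := P.ne_of_mid hz
      exact (K.edge_tile e p z hz.1 h3 h4 hzp).1
  refine ⟨hsub, fun k hk => ⟨fun h => ?_, fun h => ?_⟩⟩
  · have := (P.E7 e p k hsub hk).1 h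
    linarith
  · have := (P.E7 e p k hsub hk).2 h
    linarith

theorem w_of_mem {i : K.W} {e : K.G} (hi : i = K.a e ∨ i = K.b e) {k : Fin 3} (hk : k ≠ K.dir e) :
    K.w i k = K.w (K.a e) k := by
  rcases hi with rfl | rfl
  · rfl
  · exact (K.ab_off e k hk).symm

theorem q_le_of_mem {i : K.W} {e : K.G} (hi : i = K.a e ∨ i = K.b e) : 8 * P.q e < P.r i := by
  rcases hi with rfl | rfl
  · exact P.q_a e
  · exact P.q_b e

theorem off_coord {i : K.W} {e : K.G} (hi : i = K.a e ∨ i = K.b e) {k : Fin 3} (hk : k ≠ K.dir e)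
    {x : V} (hx : x ∈ K.nb e (2 * P.q e)) : |x k - K.w i k| < P.r i / 2 := by
  have h1 := P.q_le_of_mem hi
  have h2 := hx k
  have h3 := K.ab_off e k hk
  have h4 := w_of_mem hi hk
  have h5 := P.q_pos e
  rw [abs_lt]
  constructor <;> linarith

theorem tube_disj (e e' : K.G) (he : e ≠ e') (x : V) (hx : x ∈ K.nb e (2 * P.q e))
    (hx' : x ∈ K.nb e' (2 * P.q e')) :
    ∃ i, (i = K.a e ∨ i = K.b e) ∧ (i = K.a e' ∨ i = K.b e') ∧ x ∈ ball (K.w i) (P.r i / 2) := by
  obtain ⟨y, hy, hxy⟩ := P.near hx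
  obtain ⟨y', hy', hxy'⟩ := P.near hx'
  have hmeet : ¬ Disjoint (K.edge e) (K.edge e') := by
    intro hdis
    have h1 := P.E5 e e' hdis y hy y' hy'
    have h2 := P.E5 e' e hdis.symm y' hy' y hy
    rw [dist_comm y' y] at h2
    have h3 := P.q_lt e
    have h4 := P.q_lt e'
    have h5 : dist y y' ≤ 2 * P.q e + 2 * P.q e' := by
      have := dist_triangle y x y'
      rw [dist_comm y x] at this
      linarith
    have h6 : 0 ≤ dist y y' := dist_nonneg
    linarith
  obtain ⟨z, hz, hz'⟩ := Set.not_disjoint_iff.1 hmeet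
  obtain ⟨i, rfl⟩ := K.edge_meet e e' he z hz hz'
  have hi := K.w_on_edge i e hz
  have hi' := K.w_on_edge i e' hz'
  refine ⟨i, hi, hi', ?_⟩
  have hr := P.r_pos i
  have hq := P.q_le_of_mem hi
  have hq' := P.q_le_of_mem hi'
  have hq0 := P.q_pos e
  have hq0' := P.q_pos e'
  rw [mem_ball, dist_pi_lt_iff (by linarith)]
  intro k
  rw [Real.dist_eq]
  by_cases hk : k = K.dir e
  · by_cases hk' : k = K.dir e'
    · have hd : K.dir e = K.dir e' := hk ▸ hk'
      have h1 := K.start_ne he hd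
      have h2 := K.end_ne he hd
      have h3 := hx k
      have h4 := hx' k
      rw [abs_lt]
      rcases hi with rfl | rfl
      · rcases hi' with h | h
        · exact absurd h h1
        · rw [← h] at h4
          constructor <;> linarith
      · rcases hi' with h | h
        · rw [← h] at h4
          constructor <;> linarith
        · exact absurd h h2
    · exact P.off_coord hi' hk' hx'
  · exact P.off_coord hi hk hx

theorem tube_sub (e : K.G) : K.nb e (2 * P.q e) ⊆ Λ := by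
  intro x hx
  obtain ⟨y, hy, hxy⟩ := P.near hx
  exact (P.E1 e x y hy (by linarith [P.q_lt e, P.q_pos e])).1

theorem U_sub (i : K.W) : closedBall (K.w i) (2 * P.r i) ⊆ Λ := by
  intro x hx
  exact (P.V1 i x ((mem_closedBall.1 hx).trans (by linarith [P.r_lt i, P.r_pos i]))).1

theorem near_sq {s : K.S} {x : V}
    (hx : ∀ k, K.slo s k - 2 * (P.cs s / 8) ≤ x k ∧ x k ≤ K.shi s k + 2 * (P.cs s / 8)) :
    ∃ y ∈ K.sq s, dist x y ≤ P.cs s / 4 := by
  obtain ⟨y, hy, hxy⟩ := exists_near (K.s_le s) (by linarith [P.cs_pos s]) hx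
  exact ⟨y, hy, by linarith⟩

theorem lfU : LF (fun i => closedBall (K.w i) (2 * P.r i)) Λ := by
  intro x hx
  obtain ⟨U, hU, hfin⟩ := K.lfT x hx
  refine ⟨U, hU, ?_⟩
  refine (hfin.biUnion fun p _ => finite_meet' K.lf_w (K.isCompact_cube p) (K.sub p)).subset ?_
  rintro i ⟨y, hy, hyU⟩
  obtain ⟨p, hp⟩ := K.cover y (P.U_sub i hy)
  exact mem_biUnion (x := p) ⟨y, hp, hyU⟩ ⟨K.w i, rfl, (P.U_tile i p y hy hp).1⟩

theorem lfTube : LF (fun e => K.nb e (2 * P.q e)) Λ := by
  intro x hx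
  obtain ⟨U, hU, hfin⟩ := K.lfT x hx
  refine ⟨U, hU, ?_⟩
  refine (hfin.biUnion fun p _ => finite_meet' K.lfG (K.isCompact_cube p) (K.sub p)).subset ?_
  rintro e ⟨y, hy, hyU⟩
  obtain ⟨p, hp⟩ := K.cover y (P.tube_sub e hy)
  refine mem_biUnion (x := p) ⟨y, hp, hyU⟩ ?_
  obtain ⟨z, hz, hyz⟩ := P.near hy
  by_contra hne
  have hdis : Disjoint (K.edge e) (K.cube p) := by
    rw [Set.disjoint_iff_inter_eq_empty, ← Set.not_nonempty_iff_eq_empty]
    exact hne
  have := P.E2 e p hdis z hz y hp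
  rw [dist_comm] at this
  linarith [P.q_lt e, P.q_pos e]

/-- the radii -/
noncomputable def sizes : K.Sizes where
  r := P.r
  q := P.q
  μ := fun s => P.cs s / 8
  r_dy := P.r_dy
  q_dy := P.q_dy
  μ_pos := fun s => by linarith [P.cs_pos s]
  q_le := fun e => ⟨(P.q_a e).le, (P.q_b e).le⟩
  μ_lt := fun s e he => by linarith [P.S4 s e he, P.cs_pos s]
  U_sub := P.U_sub
  U_disj := fun i i' hi => by
    rw [Set.disjoint_left]
    intro x hx hx'
    rw [mem_closedBall] at hx hx'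
    have h1 := P.V4 i i' hi
    have h2 := P.V4 i' i hi.symm
    rw [dist_comm (K.w i')] at h2
    have h3 := P.r_lt i
    have h4 := P.r_lt i'
    have h5 := dist_triangle (K.w i) x (K.w i')
    rw [dist_comm (K.w i) x] at h5
    have h6 : 0 ≤ dist (K.w i) (K.w i') := dist_nonneg
    linarith
  U_tile := P.U_tile
  U_edge := P.U_edge
  tube_sub := P.tube_sub
  tube_tile := P.tube_tile
  tube_disj := P.tube_disj
  μ_sub := fun s x hx => by
    obtain ⟨y, hy, hxy⟩ := P.near_sq hx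
    exact P.S1 s x y hy (by linarith [P.cs_pos s])
  μ_U := fun s i x hx hs => by
    obtain ⟨y, hy, hxy⟩ := P.near_sq hs
    rw [mem_closedBall] at hx
    by_contra h
    have h1 := P.V6 i s h y hy
    have h2 := P.S2 s i h y hy
    rw [dist_comm] at h1
    have h3 := dist_triangle y x (K.w i)
    rw [dist_comm y x] at h3
    have h4 := P.r_lt i
    have h5 := P.cs_pos s
    have h6 : 0 ≤ dist y (K.w i) := dist_nonneg
    linarith
  μ_tube := fun s e x hx hs ha hb => by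
    obtain ⟨y, hy, hxy⟩ := P.near_sq hs
    obtain ⟨z, hz, hxz⟩ := P.near_mid hx ha hb
    by_cases hdis : Disjoint (K.sq s) (K.mid P.r e)
    · exfalso
      have h1 := P.S3 s e hdis y hy z hz
      have h2 := P.E4 e s hdis.symm z hz y hy
      rw [dist_comm z y] at h2
      have h3 := dist_triangle y x z
      rw [dist_comm y x] at h3
      have h4 := P.q_lt e
      have h5 := P.cs_pos s
      have h6 : 0 ≤ dist y z := dist_nonneg
      linarith
    · obtain ⟨u, hus, hue⟩ := Set.not_disjoint_iff.1 hdis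
      obtain ⟨h3, h4⟩ := P.ne_of_mid hue
      have heq : K.sq s = K.cube (K.sm s) ∩ K.cube (K.sp s) := K.s_eq s
      rw [heq] at hus ⊢
      exact subset_inter (K.edge_tile e _ u hue.1 h3 h4 hus.1).1
        (K.edge_tile e _ u hue.1 h3 h4 hus.2).1
  lfU := P.lfU
  lfTube := P.lfTube

end Pre

/-- **TM-B (SIZES)** -/
theorem specSizes : SpecSizes := by
  intro Λ v K Z hΛ _ hZ hZe
  obtain ⟨P⟩ := K.exists_pre hΛ hZ hZe
  refine ⟨P.sizes, fun x hxZ => ⟨fun i hx => ?_, fun e hx => ?_⟩⟩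
  · exact (P.V1 i x ((mem_closedBall.1 hx).trans
      (show 2 * P.r i ≤ P.c i by linarith [P.r_lt i, P.r_pos i]))).2 hxZ
  · obtain ⟨y, hy, hxy⟩ := P.near (x := x) hx
    exact (P.E1 e x y hy (by linarith [P.q_lt e, P.q_pos e])).2 hxZ

end BoxCx

end P073.PA691
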