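import Vale.Agent.P073.H527.Gap

/-!
# P073, block TM-B: constants for vertices, edges and squares
-/

open Set Metric Topology Filter

namespace P073.PA691

open P073 PR720
open Vale.Agent.P073.St (V IsInv)

namespace BoxCx

variable {Λ : Set V} {v : V} (K : BoxCx Λ v)

theorem ab_le (e : K.G) (k : Fin 3) : K.w (K.a e) k ≤ K.w (K.b e) k := by
  by_cases h : k = K.dir e
  · subst h; exact (K.ab_dir e).le
  · exact (K.ab_off e k h).le

theorem a_mem (e : K.G) : K.w (K.a e) ∈ K.edge e := ⟨le_rfl, fun k => K.ab_le e k⟩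

theorem b_mem (e : K.G) : K.w (K.b e) ∈ K.edge e := ⟨fun k => K.ab_le e k, le_rfl⟩

theorem edge_coord {e : K.G} {y : V} (hy : y ∈ K.edge e) {k : Fin 3} (hk : k ≠ K.dir e) :
    y k = K.w (K.a e) k :=
  le_antisymm ((hy.2 k).trans (K.ab_off e k hk).ge) (hy.1 k)

theorem edge_sub (e : K.G) : K.edge e ⊆ Λ := by
  obtain ⟨p, hp⟩ := K.edge_in e
  exact hp.trans (K.sub p)

theorem w_mem (i : K.W) : K.w i ∈ Λ := by
  obtain ⟨e, rfl | rfl⟩ := K.w_edge i
  · exact K.edge_sub e (K.a_mem e)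
  · exact K.edge_sub e (K.b_mem e)

theorem sq_sub (s : K.S) : K.sq s ⊆ Λ := by
  have : K.sq s = K.cube (K.sm s) ∩ K.cube (K.sp s) := K.s_eq s
  rw [this]
  exact inter_subset_left.trans (K.sub _)

theorem s_le (s : K.S) (k : Fin 3) : K.slo s k ≤ K.shi s k := by
  by_cases h : k = K.nrm s
  · subst h; exact (K.s_flat s).le
  · exact (K.s_lt s k h).le

theorem isClosed_cube (p : K.T) : IsClosed (K.cube p) := isClosed_Icc
theorem isClosed_edge (e : K.G) : IsClosed (K.edge e) := isClosed_Icc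
theorem isClosed_sq (s : K.S) : IsClosed (K.sq s) := isClosed_Icc
theorem isCompact_cube (p : K.T) : IsCompact (K.cube p) := isCompact_Icc
theorem isCompact_edge (e : K.G) : IsCompact (K.edge e) := isCompact_Icc
theorem isCompact_sq (s : K.S) : IsCompact (K.sq s) := isCompact_Icc

theorem lf_w : LF (fun i => ({K.w i} : Set V)) Λ := by
  refine K.lfG.of_cover (fun i e => i = K.a e ∨ i = K.b e) (fun i => ?_) (fun e => ?_)
  · obtain ⟨e, he⟩ := K.w_edge i
    refine ⟨e, he, singleton_subset_iff.2 ?_⟩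
    rcases he with rfl | rfl
    · exact K.a_mem e
    · exact K.b_mem e
  · exact (Set.toFinite {K.a e, K.b e}).subset fun i hi => hi

/-- the six faces of the tiles -/
def fc (j : K.T × Fin 3 × Bool) : Set V :=
  {x ∈ K.cube j.1 | x j.2.1 = if j.2.2 then K.hi j.1 j.2.1 else K.lo j.1 j.2.1}

theorem isClosed_fc (j : K.T × Fin 3 × Bool) : IsClosed (K.fc j) :=
  (K.isClosed_cube j.1).inter (isClosed_eq (continuous_apply _) continuous_const)

theorem lf_fc : LF K.fc Λ := by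
  refine K.lfT.of_cover (fun j p => j.1 = p) (fun j => ⟨j.1, rfl, fun x hx => hx.1⟩) (fun p => ?_)
  refine Set.Finite.subset ((Set.finite_singleton p).prod (Set.toFinite (univ : Set (Fin 3 × Bool))))
    ?_
  intro j hj
  exact ⟨hj, mem_univ _⟩

/-- the distance to a face in terms of coordinates -/
theorem fc_gap {c : ℝ} {x : V} {p : K.T} (hx : x ∈ K.cube p)
    (h : ∀ j, x ∉ K.fc j → ∀ y ∈ K.fc j, c < dist x y) (k : Fin 3) :
    (x k ≠ K.lo p k → K.lo p k < x k - c) ∧ (x k ≠ K.hi p k → x k + c < K.hi p k) := by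
  have hxk1 : K.lo p k ≤ x k := hx.1 k
  have hxk2 : x k ≤ K.hi p k := hx.2 k
  have hdist : ∀ t, dist x (Function.update x k t) = |x k - t| := by
    intro t
    refine le_antisymm ?_ ?_
    · rw [dist_pi_le_iff (abs_nonneg _)]
      intro l
      by_cases hl : l = k
      · subst hl; rw [Function.update_self, Real.dist_eq]
      · rw [Function.update_of_ne hl, dist_self]; exact abs_nonneg _
    · have := dist_le_pi_dist x (Function.update x k t) k
      rwa [Function.update_self, Real.dist_eq] at this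
  have hmem : ∀ t ∈ Icc (K.lo p k) (K.hi p k), Function.update x k t ∈ K.cube p := by
    intro t ht
    refine ⟨fun l => ?_, fun l => ?_⟩
    · by_cases hl : l = k
      · subst hl; rw [Function.update_self]; exact ht.1
      · rw [Function.update_of_ne hl]; exact hx.1 l
    · by_cases hl : l = k
      · subst hl; rw [Function.update_self]; exact ht.2
      · rw [Function.update_of_ne hl]; exact hx.2 l
  constructor
  · intro hne
    have := h (p, k, false) (fun hf => hne (by simpa using hf.2)) (Function.update x k (K.lo p k))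
      ⟨hmem _ (left_mem_Icc.2 (K.lt p k).le), by simp⟩
    rw [hdist, abs_of_nonneg (by linarith)] at this
    linarith
  · intro hne
    have := h (p, k, true) (fun hf => hne (by simpa using hf.2)) (Function.update x k (K.hi p k))
      ⟨hmem _ (right_mem_Icc.2 (K.lt p k).le), by simp⟩
    rw [hdist, abs_of_nonpos (by linarith)] at this
    linarith

/-- constants for the vertices -/
theorem exists_vertex_const (hΛ : IsOpen Λ) {Z : Set V} (hZ : closure Z ∩ Λ ⊆ Z)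
    (hZe : ∀ x ∈ Z, ∀ e, x ∉ K.edge e) (i : K.W) : ∃ c > 0,
    (∀ x, dist x (K.w i) ≤ c → x ∈ Λ ∧ x ∉ Z) ∧
    (∀ p, K.w i ∉ K.cube p → ∀ y ∈ K.cube p, c < dist (K.w i) y) ∧
    (∀ p k, K.w i ∈ K.cube p → (K.w i k ≠ K.lo p k → K.lo p k < K.w i k - c) ∧
      (K.w i k ≠ K.hi p k → K.w i k + c < K.hi p k)) ∧
    (∀ i', i ≠ i' → c < dist (K.w i) (K.w i')) ∧
    (∀ e, K.w i ∉ K.edge e → ∀ y ∈ K.edge e, c < dist (K.w i) y) ∧
    ∀ s, K.w i ∉ K.sq s → ∀ y ∈ K.sq s, c < dist (K.w i) y := by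
  have hsub : ({K.w i} : Set V) ⊆ Λ := singleton_subset_iff.2 (K.w_mem i)
  have hdisZ : Disjoint ({K.w i} : Set V) Z := by
    rw [Set.disjoint_singleton_left]
    intro hi
    obtain ⟨e, rfl | rfl⟩ := K.w_edge i
    · exact hZe _ hi e (K.a_mem e)
    · exact hZe _ hi e (K.b_mem e)
  obtain ⟨c₁, h1, g1⟩ := exists_room hΛ isCompact_singleton hsub hZ hdisZ
  obtain ⟨c₂, h2, g2⟩ := exists_gap hΛ isCompact_singleton hsub K.isClosed_cube K.lfT
  obtain ⟨c₃, h3, g3⟩ := exists_gap hΛ isCompact_singleton hsub K.isClosed_fc K.lf_fc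
  obtain ⟨c₄, h4, g4⟩ := exists_gap hΛ isCompact_singleton hsub
    (fun i => isClosed_singleton (x := K.w i)) K.lf_w
  obtain ⟨c₅, h5, g5⟩ := exists_gap hΛ isCompact_singleton hsub K.isClosed_edge K.lfG
  obtain ⟨c₆, h6, g6⟩ := exists_gap hΛ isCompact_singleton hsub K.isClosed_sq K.lfS
  obtain ⟨c, hc, k1, k2, k3, k4, k5, k6⟩ : ∃ c > 0, c ≤ c₁ ∧ c ≤ c₂ ∧ c ≤ c₃ ∧ c ≤ c₄ ∧ c ≤ c₅ ∧
      c ≤ c₆ := by
    refine ⟨min c₁ (min c₂ (min c₃ (min c₄ (min c₅ c₆)))), by positivity, ?_, ?_, ?_, ?_, ?_, ?_⟩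
    all_goals simp
  refine ⟨c, hc, fun x hx => g1 x _ rfl (hx.trans k1), fun p hp y hy => ?_, fun p k hp => ?_,
    fun i' hi' => ?_, fun e he y hy => ?_, fun s hs y hy => ?_⟩
  · exact k2.trans_lt (g2 p (Set.disjoint_singleton_left.2 hp) _ rfl y hy)
  · exact K.fc_gap hp (fun j hj y hy => k3.trans_lt
      (g3 j (Set.disjoint_singleton_left.2 hj) _ rfl y hy)) k
  · exact k4.trans_lt (g4 i' (Set.disjoint_singleton_left.2 fun h => hi' (K.w_inj h)) _ rfl _ rfl)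
  · exact k5.trans_lt (g5 e (Set.disjoint_singleton_left.2 he) _ rfl y hy)
  · exact k6.trans_lt (g6 s (Set.disjoint_singleton_left.2 hs) _ rfl y hy)

/-- the middle part of the edge -/
def mid (r : K.W → ℝ) (e : K.G) : Set V :=
  {y ∈ K.edge e | r (K.a e) / 4 ≤ dist y (K.w (K.a e)) ∧ r (K.b e) / 4 ≤ dist y (K.w (K.b e))}

theorem isClosed_mid (r : K.W → ℝ) (e : K.G) : IsClosed (K.mid r e) :=
  (K.isClosed_edge e).inter ((isClosed_le continuous_const (continuous_id.dist continuous_const)).inter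
    (isClosed_le continuous_const (continuous_id.dist continuous_const)))

theorem mid_sub (r : K.W → ℝ) (e : K.G) : K.mid r e ⊆ K.edge e := fun _ h => h.1

theorem isCompact_mid (r : K.W → ℝ) (e : K.G) : IsCompact (K.mid r e) :=
  (K.isCompact_edge e).of_isClosed_subset (K.isClosed_mid r e) (K.mid_sub r e)

/-- constants for the edges -/
theorem exists_edge_const (hΛ : IsOpen Λ) {Z : Set V} (hZ : closure Z ∩ Λ ⊆ Z)
    (hZe : ∀ x ∈ Z, ∀ e, x ∉ K.edge e) (r : K.W → ℝ) (e : K.G) : ∃ c > 0,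
    (∀ x, ∀ y ∈ K.edge e, dist x y ≤ c → x ∈ Λ ∧ x ∉ Z) ∧
    (∀ p, Disjoint (K.edge e) (K.cube p) → ∀ x ∈ K.edge e, ∀ y ∈ K.cube p, c < dist x y) ∧
    (∀ p, Disjoint (K.mid r e) (K.cube p) → ∀ x ∈ K.mid r e, ∀ y ∈ K.cube p, c < dist x y) ∧
    (∀ s, Disjoint (K.mid r e) (K.sq s) → ∀ x ∈ K.mid r e, ∀ y ∈ K.sq s, c < dist x y) ∧
    (∀ e', Disjoint (K.edge e) (K.edge e') → ∀ x ∈ K.edge e, ∀ y ∈ K.edge e', c < dist x y) ∧
    (∀ i, K.w i ∉ K.edge e → ∀ x ∈ K.edge e, c < dist x (K.w i)) ∧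
    ∀ p k, K.edge e ⊆ K.cube p → k ≠ K.dir e →
      (K.w (K.a e) k ≠ K.lo p k → K.lo p k < K.w (K.a e) k - c) ∧
      (K.w (K.a e) k ≠ K.hi p k → K.w (K.a e) k + c < K.hi p k) := by
  have hcpt := K.isCompact_edge e
  have hsub := K.edge_sub e
  have hcm := K.isCompact_mid r e
  have hms := (K.mid_sub r e).trans hsub
  obtain ⟨c₁, h1, g1⟩ := exists_room hΛ hcpt hsub hZ
    (Set.disjoint_left.2 fun x hx hxZ => hZe x hxZ e hx)
  obtain ⟨c₂, h2, g2⟩ := exists_gap hΛ hcpt hsub K.isClosed_cube K.lfT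
  obtain ⟨c₃, h3, g3⟩ := exists_gap hΛ hcm hms K.isClosed_cube K.lfT
  obtain ⟨c₄, h4, g4⟩ := exists_gap hΛ hcm hms K.isClosed_sq K.lfS
  obtain ⟨c₅, h5, g5⟩ := exists_gap hΛ hcpt hsub K.isClosed_edge K.lfG
  obtain ⟨c₆, h6, g6⟩ := exists_gap hΛ hcpt hsub (fun i => isClosed_singleton (x := K.w i)) K.lf_w
  obtain ⟨c₇, h7, g7⟩ := exists_gap hΛ (A := {K.w (K.a e)}) isCompact_singleton
    (singleton_subset_iff.2 (K.w_mem _)) K.isClosed_fc K.lf_fc
  obtain ⟨c, hc, k1, k2, k3, k4, k5, k6, k7⟩ : ∃ c > 0, c ≤ c₁ ∧ c ≤ c₂ ∧ c ≤ c₃ ∧ c ≤ c₄ ∧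
      c ≤ c₅ ∧ c ≤ c₆ ∧ c ≤ c₇ := by
    refine ⟨min c₁ (min c₂ (min c₃ (min c₄ (min c₅ (min c₆ c₇))))), by positivity,
      ?_, ?_, ?_, ?_, ?_, ?_, ?_⟩
    all_goals simp
  refine ⟨c, hc, fun x y hy hx => g1 x y hy (hx.trans k1), fun p hp x hx y hy => ?_,
    fun p hp x hx y hy => ?_, fun s hs x hx y hy => ?_, fun e' he' x hx y hy => ?_,
    fun i hi x hx => ?_, fun p k hp _ => ?_⟩
  · exact k2.trans_lt (g2 p hp x hx y hy)
  · exact k3.trans_lt (g3 p hp x hx y hy)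
  · exact k4.trans_lt (g4 s hs x hx y hy)
  · exact k5.trans_lt (g5 e' he' x hx y hy)
  · exact k6.trans_lt (g6 i (Set.disjoint_singleton_right.2 hi) x hx _ rfl)
  · exact K.fc_gap (hp (K.a_mem e)) (fun j hj y hy => k7.trans_lt
      (g7 j (Set.disjoint_singleton_left.2 hj) _ rfl y hy)) k

/-- constants for the squares -/
theorem exists_square_const (hΛ : IsOpen Λ) (r : K.W → ℝ) (q : K.G → ℝ) (hq : ∀ e, 0 < q e)
    (s : K.S) : ∃ c > 0,
    (∀ x, ∀ y ∈ K.sq s, dist x y ≤ c → x ∈ Λ) ∧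
    (∀ i, K.w i ∉ K.sq s → ∀ y ∈ K.sq s, c < dist y (K.w i)) ∧
    (∀ e, Disjoint (K.sq s) (K.mid r e) → ∀ x ∈ K.sq s, ∀ y ∈ K.mid r e, c < dist x y) ∧
    ∀ e, K.edge e ⊆ K.sq s → c < q e := by
  classical
  have hcpt := K.isCompact_sq s
  have hsub := K.sq_sub s
  obtain ⟨c₁, h1, g1⟩ := exists_room hΛ hcpt hsub (Z := ∅) (by simp) (disjoint_empty _)
  obtain ⟨c₂, h2, g2⟩ := exists_gap hΛ hcpt hsub (fun i => isClosed_singleton (x := K.w i)) K.lf_w
  obtain ⟨c₃, h3, g3⟩ := exists_gap hΛ hcpt hsub (K.isClosed_mid r)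
    (K.lfG.subset (fun e => K.mid_sub r e))
  obtain ⟨c₄, h4, g4⟩ : ∃ c > 0, ∀ e, K.edge e ⊆ K.sq s → c < q e := by
    have hfin := finite_meet' K.lfG hcpt hsub
    rcases hfin.toFinset.eq_empty_or_nonempty with h | h
    · refine ⟨1, one_pos, fun e he => ?_⟩
      have : e ∈ hfin.toFinset := hfin.mem_toFinset.2 ⟨_, K.a_mem e, he (K.a_mem e)⟩
      rw [h] at this
      simp at this
    · have hpos : 0 < hfin.toFinset.inf' h q := (Finset.lt_inf'_iff h).2 fun e _ => hq e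
      refine ⟨hfin.toFinset.inf' h q / 2, half_pos hpos, fun e he => ?_⟩
      have h1 : hfin.toFinset.inf' h q ≤ q e :=
        Finset.inf'_le q (hfin.mem_toFinset.2 ⟨_, K.a_mem e, he (K.a_mem e)⟩)
      linarith
  obtain ⟨c, hc, k1, k2, k3, k4⟩ : ∃ c > 0, c ≤ c₁ ∧ c ≤ c₂ ∧ c ≤ c₃ ∧ c ≤ c₄ := by
    refine ⟨min c₁ (min c₂ (min c₃ c₄)), by positivity, ?_, ?_, ?_, ?_⟩
    all_goals simp
  refine ⟨c, hc, fun x y hy hx => (g1 x y hy (hx.trans k1)).1, fun i hi y hy => ?_,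
    fun e he x hx y hy => ?_, fun e he => k4.trans_lt (g4 e he)⟩
  · exact k2.trans_lt (g2 i (Set.disjoint_singleton_right.2 hi) y hy _ rfl)
  · exact k3.trans_lt (g3 e he x hx y hy)

end BoxCx

end P073.PA691
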