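import Vale.Agent.P073.ConGlue

/-!
# P073, block PH: planar facts about continua in a disc (statements)

`q` is a conical 2-ball with boundary circle `dq`.
-/

open Set Metric Topology Filter

namespace P073.PH

/-- `{u = c}` crosses the circle `dq` in finitely many points and changes sign at each of them. -/
def Crosses {E : Type*} [TopologicalSpace E] (dq : Set E) (u : E → ℝ) (c : ℝ) : Prop :=
  (dq ∩ {x | u x = c}).Finite ∧
    ∀ x ∈ dq, u x = c → (∃ᶠ y in 𝓝[dq] x, c < u y) ∧ ∃ᶠ y in 𝓝[dq] x, u y < c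

/-- **No interleaving.** Two disjoint continua in a disc: two boundary points of the first one are
joined in the boundary circle off any two boundary points of the second one
(format of `ConBall.exists_arcs`). -/
def SpecNoInterleave : Prop :=
  ∀ (E : Type) [NormedAddCommGroup E] [NormedSpace ℝ E] (q dq Z Z' : Set E),
    ConBall 2 q dq → IsCompact Z → IsPreconnected Z → Z ⊆ q →
    IsCompact Z' → IsPreconnected Z' → Z' ⊆ q → Disjoint Z Z' →
    ∀ x ∈ Z ∩ dq, ∀ y ∈ Z ∩ dq, ∀ x' ∈ Z' ∩ dq, ∀ y' ∈ Z' ∩ dq,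
      ∃ A : Set E, IsPreconnected A ∧ A ⊆ dq \ {x', y'} ∧ x ∈ A ∧ y ∈ A

/-- **(R2).** For all but countably many levels `c` which cross `dq` finitely often with change of
sign, a connected subset of `{u = c}` contains at most two points of `dq`. -/
def SpecAtMostTwo : Prop :=
  ∀ (E : Type) [NormedAddCommGroup E] [NormedSpace ℝ E] (q dq : Set E) (u : E → ℝ),
    ConBall 2 q dq → ContinuousOn u q → ∃ N : Set ℝ, N.Countable ∧ ∀ c ∉ N, Crosses dq u c →
      ∀ Z ⊆ q, IsPreconnected Z → (∀ z ∈ Z, u z = c) → ∀ x ∈ Z ∩ dq, ∀ y ∈ Z ∩ dq, ∀ z ∈ Z ∩ dq,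
        x = y ∨ y = z ∨ x = z

/-- **Gap.** `P` compact, `X ⊆ P` finite.  A connected set in a thin neighbourhood of `P` which
comes close to two points of `X` shows that they lie in a common continuum of `P`. -/
def SpecGap : Prop :=
  ∀ (E : Type) [MetricSpace E] (P X : Set E), IsCompact P → X.Finite → X ⊆ P →
    ∃ η > 0, ∀ M : Set E, IsPreconnected M → M ⊆ thickening η P → ∀ x ∈ X, ∀ y ∈ X,
      (M ∩ ball x η).Nonempty → (M ∩ ball y η).Nonempty →
        ∃ Z ⊆ P, IsCompact Z ∧ IsPreconnected Z ∧ x ∈ Z ∧ y ∈ Z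

/-- **Hex.** `K` closed in the disc, `p, p' ∈ dq` not in a common continuum of `K`: a continuum
of `q \ K` joins the two sides of `dq \ {p, p'}`. -/
def SpecHex : Prop :=
  ∀ (E : Type) [NormedAddCommGroup E] [NormedSpace ℝ E] (q dq K : Set E),
    ConBall 2 q dq → IsCompact K → K ⊆ q → ∀ p ∈ K ∩ dq, ∀ p' ∈ K ∩ dq,
      (¬ ∃ Z ⊆ K, IsPreconnected Z ∧ p ∈ Z ∧ p' ∈ Z) →
      ∃ W ⊆ q \ K, IsCompact W ∧ IsPreconnected W ∧ ∃ w ∈ W ∩ dq, ∃ w' ∈ W ∩ dq,
        ¬ ∃ A : Set E, IsPreconnected A ∧ A ⊆ dq \ {p, p'} ∧ w ∈ A ∧ w' ∈ A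

end P073.PH
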