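import Vale.Agent.P073.H527.Windows

/-!
# P073, block PLS: the windows, in the form of `PLS/Part3.lean` (with `θ z < ε z' / 2`)
-/

open Set Metric Topology Filter

namespace P073.PLS

open Vale.Agent.P073.St (V IsHomeo IsInv)
open P073.PR720

/-- **Windows**: `SpecWin` of `PLS/Part3.lean` with `θ z < ε z' / 2` instead of `θ z < ε z'`. -/
theorem specWin2 (Ω Λ F Y : Set V) (T : Tiling Ω) (f h : V → V) (η θ κ μ ε : V → ℝ) (W : Type)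
    (R bd : W → Set V) (L : W → T.I) (_ : IsInv Ω Λ f h) (hF : F ⊆ Λ)
    (hL : LabMos T F Y h η W R bd L)
    (hnc : ∀ z ∈ F, ¬ IsCompact (connectedComponentIn F z))
    (hFcl : ∀ z ∈ Λ, z ∉ F → ∃ r > 0, Disjoint (ball z r) F)
    (hθl : ∀ x y, |θ x - θ y| ≤ (1 / 10) * dist x y)
    (hθ : ∀ z ∈ Λ, 0 < θ z ∧ ∀ z', dist z' z < 4 * θ z → z' ∈ Λ ∧ θ z < ε z' / 2)
    (hκl : ∀ x y, |κ x - κ y| ≤ (1 / 10) * dist x y)
    (hκ : ∀ z ∈ Λ, 0 < κ z ∧ κ z ≤ θ z ∧ (z ∈ F → ∃ D B, SurfDisc F D B ∧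
        F ∩ ball z (κ z) ⊆ D \ B ∧ D ⊆ ball z (θ z)))
    (hμ : ∀ x ∈ Ω, 0 < μ x ∧ ∀ x', dist x x' < μ x → x' ∈ Ω ∧ dist (f x) (f x') < κ (f x) / 100)
    (hT : ∀ i, ∀ x ∈ T.C i, ∀ y ∈ T.C i, dist x y < μ x)
    (hη : ∀ z ∈ F, 0 < η z ∧ η z ≤ κ z / 100 ∧
      ∀ x, dist (h z) x < η z → x ∈ Ω ∧ dist z (f x) < κ z / 100) :
    ∃ D B : W → Set V, PT.Windows F R L D B ∧
      ∀ v, ∀ z ∈ D v, ∀ x ∈ T.C (L v), dist z (f x) < ε z := by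
  obtain ⟨D, B, h1, -, h2⟩ := exists_windows (θ := θ) (κ := κ) (μ := μ) (η := η)
    (ε := fun z => ε z / 2) hF hFcl hnc hθl hθ hκl hκ hμ hT (fun z hz => (hη z hz).2.2) hL.mos
    hL.near
  refine ⟨D, B, h1, fun v z hz x hx => ?_⟩
  have := h2 v z hz x hx
  linarith

end P073.PLS
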