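import Vale.Agent.P073.PLS.Sizes
import Vale.Agent.P073.PT.MosConn

/-!
# P073, block PLS: windows of a labelled mosaic

The cells of a labelled mosaic with label `i` are close to `f '' C i`, which is small compared with
the Lebesgue number function `κ` of the small discs of `F`.
-/

open Set Metric Topology Filter

namespace P073.PLS

open Vale.Agent.P073.St (V IsHomeo IsInv)

open Vale.Agent.P073

/-- the part of `F` in a closed ball inside `Λ` is compact -/
theorem compact_part {Λ F : Set V} (hFcl : ∀ z ∈ Λ, z ∉ F → ∃ r > 0, Disjoint (ball z r) F)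
    {p : V} {r : ℝ} (hr : closedBall p r ⊆ Λ) : IsCompact (closedBall p r ∩ F) := by
  refine (isCompact_closedBall p r).of_isClosed_subset ?_ inter_subset_left
  rw [← isOpen_compl_iff, Metric.isOpen_iff]
  intro z hz
  by_cases hzb : z ∈ closedBall p r
  · have hzF : z ∉ F := fun h => hz ⟨hzb, h⟩
    obtain ⟨s, hs, hd⟩ := hFcl z (hr hzb) hzF
    exact ⟨s, hs, fun w hw hw' => Set.disjoint_left.1 hd hw hw'.2⟩
  · obtain ⟨s, hs, hsub⟩ := Metric.isOpen_iff.1 isClosed_closedBall.isOpen_compl z hzb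
    exact ⟨s, hs, fun w hw hw' => hsub hw hw'.1⟩

/-- a compact set does not contain a non-compact component -/
theorem exists_outside {F K : Set V} (hK : IsCompact K) (hKF : K ⊆ F) {p : V}
    (hnc : ¬ IsCompact (connectedComponentIn F p)) : ∃ q ∈ connectedComponentIn F p, q ∉ K := by
  by_contra hall
  push Not at hall
  apply hnc
  have h1 : connectedComponentIn F p ⊆ K := hall
  have h2 : closure (connectedComponentIn F p) ⊆ K := closure_minimal h1 hK.isClosed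
  have h3 : closure (connectedComponentIn F p) ⊆ connectedComponentIn F p := by
    by_cases hp : p ∈ F
    · exact (isPreconnected_connectedComponentIn.closure).subset_connectedComponentIn
        (subset_closure (mem_connectedComponentIn hp)) (h2.trans hKF)
    · rw [connectedComponentIn_eq_empty hp, closure_empty]
  exact hK.of_isClosed_subset (closure_eq_iff_isClosed.1 (h3.antisymm subset_closure)) h1

section

variable {Ω Λ F Y : Set V} {T : Tiling Ω} {f h : V → V} {θ κ μ η ε : V → ℝ} {W : Type}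
  {R bd : W → Set V} {L : W → T.I}

/-- the points of the cells with label `i` are close to the points of `f '' C i` -/
theorem dist_label (hF : F ⊆ Λ) (hcov : ∀ v, R v ⊆ F)
    (hκL : ∀ x y, |κ x - κ y| ≤ (1 / 10) * dist x y)
    (hκ : ∀ z ∈ Λ, 0 < κ z)
    (hμ : ∀ x ∈ Ω, 0 < μ x ∧ ∀ x', dist x x' < μ x → x' ∈ Ω ∧ dist (f x) (f x') < κ (f x) / 100)
    (hT : ∀ i, ∀ x ∈ T.C i, ∀ y ∈ T.C i, dist x y < μ x)
    (hη : ∀ z ∈ F, ∀ x, dist (h z) x < η z → x ∈ Ω ∧ dist z (f x) < κ z / 100)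
    (hnear : ∀ v, ∀ z ∈ R v, ∃ x ∈ T.C (L v), dist (h z) x < η z)
    {v : W} {z x : V} (hz : z ∈ R v) (hx : x ∈ T.C (L v)) : dist z (f x) < κ z / 49 := by
  have hzF := hcov v hz
  obtain ⟨x', hx', hd⟩ := hnear v z hz
  have h1 := (hη z hzF x' hd).2
  have h2 := ((hμ x (T.sub _ hx)).2 x' (hT _ x hx x' hx')).2
  have h3 := dist_triangle z (f x') (f x)
  rw [dist_comm (f x') (f x)] at h3
  have h4 := (abs_le.1 (hκL (f x) z)).2
  rw [dist_comm (f x) z] at h4
  have h5 := hκ z (hF hzF)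
  linarith

/-- points of cells with the same label are close to each other -/
theorem dist_same_label (hF : F ⊆ Λ) (hcov : ∀ v, R v ⊆ F)
    (hκL : ∀ x y, |κ x - κ y| ≤ (1 / 10) * dist x y)
    (hκ : ∀ z ∈ Λ, 0 < κ z)
    (hμ : ∀ x ∈ Ω, 0 < μ x ∧ ∀ x', dist x x' < μ x → x' ∈ Ω ∧ dist (f x) (f x') < κ (f x) / 100)
    (hT : ∀ i, ∀ x ∈ T.C i, ∀ y ∈ T.C i, dist x y < μ x)
    (hη : ∀ z ∈ F, ∀ x, dist (h z) x < η z → x ∈ Ω ∧ dist z (f x) < κ z / 100)
    (hnear : ∀ v, ∀ z ∈ R v, ∃ x ∈ T.C (L v), dist (h z) x < η z)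
    {v w : W} (hvw : L v = L w) {z z' : V} (hz : z ∈ R v) (hz' : z' ∈ R w) :
    dist z z' < κ z / 4 := by
  obtain ⟨x, hx⟩ : (T.C (L v)).Nonempty := (T.int _).mono interior_subset
  have h1 := dist_label hF hcov hκL hκ hμ hT hη hnear hz hx
  have h2 := dist_label hF hcov hκL hκ hμ hT hη hnear hz' (hvw ▸ hx)
  have h3 := dist_triangle z (f x) z'
  rw [dist_comm (f x) z'] at h3
  have h4 := (abs_le.1 (hκL z' z)).2
  rw [dist_comm z' z] at h4
  have h5 := hκ z (hF (hcov v hz))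
  linarith

/-- **Windows** of a labelled mosaic. -/
theorem exists_windows (hF : F ⊆ Λ)
    (hFcl : ∀ z ∈ Λ, z ∉ F → ∃ r > 0, Disjoint (ball z r) F)
    (hnc : ∀ z ∈ F, ¬ IsCompact (connectedComponentIn F z))
    (hθL : ∀ x y, |θ x - θ y| ≤ (1 / 10) * dist x y)
    (hθ : ∀ z ∈ Λ, 0 < θ z ∧ ∀ z', dist z' z < 4 * θ z → z' ∈ Λ ∧ θ z < ε z')
    (hκL : ∀ x y, |κ x - κ y| ≤ (1 / 10) * dist x y)
    (hκ : ∀ z ∈ Λ, 0 < κ z ∧ κ z ≤ θ z ∧ (z ∈ F → ∃ D B, SurfDisc F D B ∧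
        F ∩ ball z (κ z) ⊆ D \ B ∧ D ⊆ ball z (θ z)))
    (hμ : ∀ x ∈ Ω, 0 < μ x ∧ ∀ x', dist x x' < μ x → x' ∈ Ω ∧ dist (f x) (f x') < κ (f x) / 100)
    (hT : ∀ i, ∀ x ∈ T.C i, ∀ y ∈ T.C i, dist x y < μ x)
    (hη : ∀ z ∈ F, ∀ x, dist (h z) x < η z → x ∈ Ω ∧ dist z (f x) < κ z / 100)
    (hmos : Mosaic F R bd)
    (hnear : ∀ v, ∀ z ∈ R v, ∃ x ∈ T.C (L v), dist (h z) x < η z) :
    ∃ D B : W → Set V, PT.Windows F R L D B ∧
      (∀ v w, L v = L w → D v = D w ∧ B v = B w ∧ R w ⊆ D v \ B v) ∧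
      ∀ v, ∀ z ∈ D v, ∀ x ∈ T.C (L v), dist z (f x) < 2 * ε z := by
  classical
  have hcov : ∀ v, R v ⊆ F := fun v => PT.cell_subset hmos v
  have hκ0 : ∀ z ∈ Λ, 0 < κ z := fun z hz => (hκ z hz).1
  -- a representative point for each cell, depending on its label only
  obtain ⟨z₀, rep, hrepL, hz₀⟩ : ∃ (z₀ : W → V) (rep : W → W), (∀ v, L (rep v) = L v) ∧
      (∀ v, z₀ v ∈ R (rep v)) ∧ ∀ v w, L v = L w → z₀ v = z₀ w := by
    choose p hp using fun v => PT.cell_nonempty hmos v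
    let r : W → W := fun v => @Classical.epsilon W ⟨v⟩ fun w => L w = L v
    have hr : ∀ v, L (r v) = L v := fun v =>
      @Classical.epsilon_spec W (fun w => L w = L v) ⟨v, rfl⟩
    refine ⟨fun v => p (r v), r, hr, fun v => hp _, fun v w hvw => ?_⟩
    show p (r v) = p (r w)
    have : r v = r w := by
      show @Classical.epsilon W ⟨v⟩ (fun u => L u = L v) =
        @Classical.epsilon W ⟨w⟩ (fun u => L u = L w)
      rw [hvw]
    rw [this]
  obtain ⟨hz₀R, hz₀L⟩ := hz₀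
  have hz₀F : ∀ v, z₀ v ∈ F := fun v => hcov _ (hz₀R v)
  -- the discs
  have hdisc : ∀ z : F, ∃ DB : Set V × Set V, SurfDisc F DB.1 DB.2 ∧
      F ∩ ball z.1 (κ z.1) ⊆ DB.1 \ DB.2 ∧ DB.1 ⊆ ball z.1 (θ z.1) := by
    rintro ⟨z, hz⟩
    obtain ⟨D, B, h1, h2, h3⟩ := (hκ z (hF hz)).2.2 hz
    exact ⟨(D, B), h1, h2, h3⟩
  choose DB hDB1 hDB2 hDB3 using hdisc
  let D : W → Set V := fun v => (DB ⟨z₀ v, hz₀F v⟩).1
  let B : W → Set V := fun v => (DB ⟨z₀ v, hz₀F v⟩).2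
  have hDeq : ∀ v w, L v = L w → D v = D w ∧ B v = B w := by
    intro v w hvw
    have h1 : (⟨z₀ v, hz₀F v⟩ : F) = ⟨z₀ w, hz₀F w⟩ := Subtype.ext (hz₀L v w hvw)
    constructor
    · show (DB _).1 = (DB _).1
      rw [h1]
    · show (DB _).2 = (DB _).2
      rw [h1]
  have hclose : ∀ v w, L v = L w → ∀ z ∈ R w, dist z (z₀ v) < κ (z₀ v) / 4 := by
    intro v w hvw z hz
    rw [dist_comm]
    exact dist_same_label hF hcov hκL hκ0 hμ hT hη hnear ((hrepL v).trans hvw) (hz₀R v) hz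
  have hsub : ∀ v w, L v = L w → R w ⊆ D v \ B v := by
    intro v w hvw z hz
    refine hDB2 ⟨z₀ v, hz₀F v⟩ ⟨hcov w hz, ?_⟩
    rw [mem_ball]
    have h1 := hclose v w hvw z hz
    have h2 := hκ0 _ (hF (hz₀F v))
    show dist z (z₀ v) < κ (z₀ v)
    linarith
  refine ⟨D, B, ⟨fun v => hDB1 _, ?_, ?_, ?_, ?_⟩, fun v w hvw => ⟨(hDeq v w hvw).1,
    (hDeq v w hvw).2, hsub v w hvw⟩, ?_⟩
  · -- sub
    intro v w hvw
    have h1 : w ∈ {u | L u = L v} := HOne.Joined.right_mem hvw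
    exact hsub v w (Eq.symm h1)
  · -- congr
    intro v w hvw
    have h1 : w ∈ {u | L u = L v} := HOne.Joined.right_mem hvw
    exact hDeq w v h1
  · -- two
    intro v w hvw
    obtain ⟨p, hp⟩ := PT.cell_nonempty hmos v
    have hDF : ∀ u, D u ⊆ F := fun u => (hDB1 _).2.1
    have hDc : ∀ u, IsCompact (D u) := fun u => (hDB1 ⟨z₀ u, hz₀F u⟩).1.isCompact
    obtain ⟨q, hq, hqK⟩ := exists_outside ((hDc v).union (hDc w))
      (union_subset (hDF v) (hDF w)) (hnc p (hcov v hp))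
    have hqF : q ∈ F := connectedComponentIn_subset F p hq
    obtain ⟨u, hu⟩ := PT.exists_cell hmos hqF
    refine ⟨u, fun hsubu => hqK (Or.inl (hsubu hu).1), fun hsubu => hqK (Or.inr (hsubu hu).1), ?_⟩
    exact (PT.joined_of_preconn hmos (isPreconnected_connectedComponentIn (F := F) (x := p))
      (connectedComponentIn_subset F p) ⟨p, hp, mem_connectedComponentIn (hcov v hp)⟩
      ⟨q, hu, hq⟩).mono (subset_univ _)
  · -- fin
    intro v
    obtain ⟨p, hp⟩ := PT.cell_nonempty hmos v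
    have hpΛ := hF (hcov v hp)
    obtain ⟨hθp, hθp'⟩ := hθ p hpΛ
    have hball : closedBall p (3 * θ p) ⊆ Λ := by
      intro z hz
      rw [mem_closedBall] at hz
      exact (hθp' z (by linarith)).1
    refine (PT.finite_of_compact hmos (compact_part hFcl hball) inter_subset_right).subset ?_
    intro w hw
    have hpD : p ∈ D w := (hw hp).1
    have h1 : dist p (z₀ w) < θ (z₀ w) := hDB3 _ hpD
    have h2 := (abs_le.1 (hθL (z₀ w) p)).2
    rw [dist_comm (z₀ w) p] at h2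
    obtain ⟨z, hz⟩ := PT.cell_nonempty hmos w
    refine ⟨z, hz, ?_, hcov w hz⟩
    rw [mem_closedBall]
    have h3 := hclose w w rfl z hz
    have h4 := (hκ _ (hF (hz₀F w))).2.1
    have h5 := dist_triangle z (z₀ w) p
    rw [dist_comm (z₀ w) p] at h5
    have h6 := hκ0 _ (hF (hz₀F w))
    linarith
  · -- closeness
    intro v z hz x hx
    have h1 : dist z (z₀ v) < θ (z₀ v) := hDB3 _ hz
    have h2 : dist (z₀ v) (f x) < κ (z₀ v) / 49 :=
      dist_label hF hcov hκL hκ0 hμ hT hη hnear (hz₀R v) (by rw [hrepL]; exact hx)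
    have h3 := (hκ _ (hF (hz₀F v))).2.1
    obtain ⟨h4, h5⟩ := hθ _ (hF (hz₀F v))
    have h6 := (h5 z (by linarith)).2
    have h7 := dist_triangle z (z₀ v) (f x)
    linarith

end

end P073.PLS
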